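import Vale.Agent.P080.H990.Main

namespace Vale.Agent.Results.P080.StabilityLiouville

open Vale.Agent.P080 Metric

/-- In every dimension, with one exponent `α` and one constant `C` depending only on the dimension:
the interior `C^{1,α}` estimate for infinity-harmonic functions, the Hölder stability of the
gradient with respect to the supremum norm, and the Liouville theorem for entire infinity-harmonic
functions of growth `o(R^{1+α})` along some radii; and `C¹` regularity on open sets. -/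
theorem result :
    (∀ d : ℕ, ∃ α : ℝ, 0 < α ∧ α < 1 ∧ ∃ C : ℝ, 0 < C ∧
      (∀ (u : EuclideanSpace ℝ (Fin d) → ℝ) (x₀ : EuclideanSpace ℝ (Fin d)) (R M : ℝ), 0 < R →
        IsInfHarmonicOn u (ball x₀ R) → (∀ x ∈ ball x₀ R, ∀ y ∈ ball x₀ R, u x - u y ≤ M) →
        ContDiffOn ℝ 1 u (ball x₀ (R / 2)) ∧
        (∀ x ∈ ball x₀ (R / 2), ‖gradient u x‖ ≤ C * (M / R)) ∧
        (∀ x ∈ ball x₀ (R / 2), ∀ y ∈ ball x₀ (R / 2),
          ‖gradient u x - gradient u y‖ ≤ C * (M / R) * (‖x - y‖ / R) ^ α)) ∧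
      (∀ (u v : EuclideanSpace ℝ (Fin d) → ℝ) (x₀ : EuclideanSpace ℝ (Fin d)) (R M δ : ℝ),
        0 < R → 0 < M → 0 < δ →
        IsInfHarmonicOn u (ball x₀ R) → IsInfHarmonicOn v (ball x₀ R) →
        (∀ x ∈ ball x₀ R, ∀ y ∈ ball x₀ R, u x - u y ≤ M) →
        (∀ x ∈ ball x₀ R, ∀ y ∈ ball x₀ R, v x - v y ≤ M) →
        (∀ x ∈ ball x₀ R, |u x - v x| ≤ δ) →
        ∀ x ∈ ball x₀ (R / 2), ‖gradient u x - gradient v x‖ ≤
          C * ((M / R) ^ (1 / (1 + α)) * (δ / R) ^ (α / (1 + α)))) ∧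
      (∀ u : EuclideanSpace ℝ (Fin d) → ℝ, IsInfHarmonicOn u Set.univ →
        (∀ ε > (0 : ℝ), ∀ R₀ : ℝ, ∃ R > R₀,
          ∀ x ∈ ball (0 : EuclideanSpace ℝ (Fin d)) R, ∀ y ∈ ball (0 : EuclideanSpace ℝ (Fin d)) R,
            u x - u y ≤ ε * R ^ (1 + α)) →
        ∃ (a : EuclideanSpace ℝ (Fin d)) (b : ℝ), ∀ x, u x = inner ℝ a x + b)) ∧
    ∀ (d : ℕ) (Ω : Set (EuclideanSpace ℝ (Fin d))) (u : EuclideanSpace ℝ (Fin d) → ℝ),
      IsOpen Ω → IsInfHarmonicOn u Ω → ContDiffOn ℝ 1 u Ω := by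
  have key : ∀ d : ℕ, ∃ α : ℝ, 0 < α ∧ α < 1 ∧ ∃ C : ℝ, 0 < C ∧
      Zy.FullEstimate (EuclideanSpace ℝ (Fin d)) α C := fun d =>
    Zy.fullEstimate (Zy.theoremZ (E := EuclideanSpace ℝ (Fin d)))
  refine ⟨fun d => ?_, fun d Ω u hΩ hu => ?_⟩
  · obtain ⟨α, h0, h1, C, hC, h⟩ := key d
    refine ⟨α, h0, h1, 16 + 8 * C, by positivity, ?_, H990.stability h0 hC h,
      H990.liouville hC h⟩
    intro u x₀ R M hR hu hM
    obtain ⟨a1, a2, a3⟩ := h u x₀ R M hR hu hM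
    have hM0 : 0 ≤ M := by
      have := hM x₀ (mem_ball_self hR) x₀ (mem_ball_self hR)
      linarith
    have hMR : 0 ≤ M / R := div_nonneg hM0 hR.le
    refine ⟨a1, fun x hx => (a2 x hx).trans ?_, fun x hx y hy => (a3 x hx y hy).trans ?_⟩
    · nlinarith
    · have : 0 ≤ (‖x - y‖ / R) ^ α := by positivity
      have h2 : C * (M / R) ≤ (16 + 8 * C) * (M / R) := by nlinarith
      exact mul_le_mul_of_nonneg_right h2 this
  · obtain ⟨α, h0, h1, C, hC, h⟩ := key d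
    exact Zy.contDiffOn_open (fun u x₀ R M hR hu hM => (h u x₀ R M hR hu hM).1) hΩ hu

end Vale.Agent.Results.P080.StabilityLiouville
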