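import Vale.Agent.P080.H510.Coord

/-!
Infinity-harmonic functions in every dimension: the interior `C^{1,α}` estimate, the identity
with the absolutely minimizing Lipschitz functions, and streamlines.
-/

namespace Vale.Agent.Results.P080.Streamlines

open Metric
open scoped NNReal

/-- The partial derivative `∂φ/∂x_i`. -/
noncomputable def partialDeriv {d : ℕ} (i : Fin d) (φ : EuclideanSpace ℝ (Fin d) → ℝ) :
    EuclideanSpace ℝ (Fin d) → ℝ :=
  fun z => fderiv ℝ φ z (EuclideanSpace.single i 1)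

/-- `u` is infinity-harmonic on `Ω`: continuous on `Ω` and a viscosity solution there of the
equation `∑_{i,j} φ_i φ_j φ_{ij} = 0`, tested with all `C²` functions `φ`. -/
def InfHarmonic {d : ℕ} (u : EuclideanSpace ℝ (Fin d) → ℝ)
    (Ω : Set (EuclideanSpace ℝ (Fin d))) : Prop :=
  ContinuousOn u Ω ∧ ∀ z ∈ Ω, ∀ φ : EuclideanSpace ℝ (Fin d) → ℝ, ContDiff ℝ 2 φ →
    (IsLocalMax (fun x => u x - φ x) z →
      0 ≤ ∑ i, ∑ j, partialDeriv i φ z * partialDeriv j φ z *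
        partialDeriv i (partialDeriv j φ) z) ∧
    (IsLocalMin (fun x => u x - φ x) z →
      ∑ i, ∑ j, partialDeriv i φ z * partialDeriv j φ z *
        partialDeriv i (partialDeriv j φ) z ≤ 0)

/-- `u` is continuous on `Ω` and absolutely minimizing for the Lipschitz constant: for every
bounded open `V` with closure in `Ω`, every Lipschitz constant of `u` on the boundary of `V` is a
Lipschitz constant of `u` on `V`. -/
def AbsMinLip {d : ℕ} (u : EuclideanSpace ℝ (Fin d) → ℝ)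
    (Ω : Set (EuclideanSpace ℝ (Fin d))) : Prop :=
  ContinuousOn u Ω ∧ ∀ V : Set (EuclideanSpace ℝ (Fin d)), IsOpen V →
    Bornology.IsBounded V → closure V ⊆ Ω →
    ∀ K : ℝ≥0, LipschitzOnWith K u (frontier V) → LipschitzOnWith K u V

theorem infHarmonic_iff {d : ℕ} (u : EuclideanSpace ℝ (Fin d) → ℝ)
    (Ω : Set (EuclideanSpace ℝ (Fin d))) :
    InfHarmonic u Ω ↔ Vale.Agent.P080.IsInfHarmonicOn u Ω := by
  constructor
  · intro h
    refine ⟨h.1, fun z hz φ hφ hm => ?_, fun z hz φ hφ hm => ?_⟩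
    · rw [Vale.Agent.P080.H510.infLaplacian_coord hφ]
      exact (h.2 z hz φ hφ).1 hm
    · rw [Vale.Agent.P080.H510.infLaplacian_coord hφ]
      exact (h.2 z hz φ hφ).2 hm
  · intro h
    refine ⟨h.continuousOn, fun z hz φ hφ => ⟨fun hm => ?_, fun hm => ?_⟩⟩
    · have := h.sub z hz φ hφ hm
      rw [Vale.Agent.P080.H510.infLaplacian_coord hφ] at this
      exact this
    · have := h.super z hz φ hφ hm
      rw [Vale.Agent.P080.H510.infLaplacian_coord hφ] at this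
      exact this

theorem result : ∀ d : ℕ,
    -- (1) the interior `C^{1,α}` estimate, with constants depending only on the dimension
    (∃ α : ℝ, 0 < α ∧ α < 1 ∧ ∃ C : ℝ, 0 < C ∧
      ∀ (u : EuclideanSpace ℝ (Fin d) → ℝ) (x₀ : EuclideanSpace ℝ (Fin d)) (R M : ℝ), 0 < R →
        InfHarmonic u (ball x₀ R) → (∀ x ∈ ball x₀ R, ∀ y ∈ ball x₀ R, u x - u y ≤ M) →
        ContDiffOn ℝ 1 u (ball x₀ (R / 2)) ∧
        (∀ x ∈ ball x₀ (R / 2), ‖gradient u x‖ ≤ C * (M / R)) ∧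
        (∀ x ∈ ball x₀ (R / 2), ∀ y ∈ ball x₀ (R / 2),
          ‖gradient u x - gradient u y‖ ≤ C * (M / R) * (‖x - y‖ / R) ^ α)) ∧
    ∀ (Ω : Set (EuclideanSpace ℝ (Fin d))) (u : EuclideanSpace ℝ (Fin d) → ℝ), IsOpen Ω →
      -- (2) infinity-harmonic = absolutely minimizing Lipschitz; these functions are `C¹`
      (InfHarmonic u Ω ↔ AbsMinLip u Ω) ∧
      (InfHarmonic u Ω → ContDiffOn ℝ 1 u Ω ∧
        -- (3) the streamline through a noncritical point
        ∀ x₀ ∈ Ω, gradient u x₀ ≠ 0 →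
          ∃ (γ : ℝ → EuclideanSpace ℝ (Fin d)) (I : Set ℝ),
            IsOpen I ∧ I.OrdConnected ∧ (0 : ℝ) ∈ I ∧ LipschitzWith 1 γ ∧ γ 0 = x₀ ∧
            (∀ t ∈ I, γ t ∈ Ω) ∧ (∀ t ∈ frontier I, γ t ∈ frontier Ω) ∧
            (∀ t ∈ I, gradient u (γ t) ≠ 0 ∧
              HasDerivAt γ (‖gradient u (γ t)‖⁻¹ • gradient u (γ t)) t) ∧
            (∀ s ∈ I, ∀ t ∈ I, (0 ≤ s ∧ s ≤ t) ∨ (t ≤ s ∧ s ≤ 0) →
              ‖gradient u (γ s)‖ ≤ ‖gradient u (γ t)‖) ∧
            (∀ s ∈ I, ∀ t ∈ I, s ≤ t →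
              (t - s) * ‖gradient u x₀‖ ≤ u (γ t) - u (γ s))) := by
  intro d
  refine ⟨?_, fun Ω u hΩ => ⟨?_, fun hu => ?_⟩⟩
  · obtain ⟨α, h0, h1, C, hC, h⟩ :=
      Vale.Agent.P080.H510.coneEstimate (E := EuclideanSpace ℝ (Fin d))
    exact ⟨α, h0, h1, C, hC, fun u x₀ R M hR hu hM =>
      h u x₀ R M hR ((infHarmonic_iff u _).1 hu).coneComp hM⟩
  · exact (infHarmonic_iff u Ω).trans (Vale.Agent.P080.H510.infHarmonic_iff hΩ)
  · have hcc := ((infHarmonic_iff u Ω).1 hu).coneComp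
    have hd := Vale.Agent.P080.H510.contDiffOn_of_cone hΩ hcc
    exact ⟨hd, fun x₀ hx₀ hne => Vale.Agent.P080.H510.streamline hΩ hcc hd hx₀ hne⟩

end Vale.Agent.Results.P080.Streamlines
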